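import Vale.Agent.P223W69.Man
import Vale.Agent.P244I69.Chart

/-! The scalar curvature of the Levi-Civita connection is given by the formula in coordinates. -/

namespace Vale.Agent.P223X38

open scoped Manifold ContDiff Topology
open Bundle Vale.Agent.P223 Vale.Agent.P223W69 Vale.Agent.P244Z Vale.Agent.P244I

noncomputable section

variable {n : ℕ}

/-- the point of Euclidean space with given coordinates -/
abbrev pt (n : ℕ) : J.E n ≃L[ℝ] EE n := (EuclideanSpace.equiv (Fin n) ℝ).symm

section loc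

variable {U : Set (J.E n)} {x : J.E n} {G : J.Mtx n} {H : EE n → Matrix (Fin n) (Fin n) ℝ}

theorem pd_eq {f : J.E n → ℝ} {f' : EE n → ℝ} (hU : IsOpen U) (e : ∀ y ∈ U, f y = f' (pt n y))
    (hx : x ∈ U) (i : Fin n) : J.pd i f x = Geo.pd i f' (pt n x) := by
  have h : f =ᶠ[𝓝 x] f' ∘ pt n := Filter.mem_of_superset (hU.mem_nhds hx) e
  unfold J.pd Geo.pd
  rw [h.fderiv_eq, ContinuousLinearEquiv.comp_right_fderiv]
  rfl

theorem chr_eq (hU : IsOpen U) (e : ∀ y ∈ U, G y = H (pt n y)) (hx : x ∈ U) (k i j : Fin n) :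
    J.chr G x k i j = Geo.christoffel H (pt n x) k i j := by
  have h1 : ∀ i a b, J.pd i (fun y => G y a b) x = Geo.pd i (fun y => H y a b) (pt n x) :=
    fun i a b => pd_eq hU (fun y hy => by rw [e y hy]) hx i
  simp only [J.chr, Geo.christoffel, h1, e x hx]

theorem chr_symm (hs : ∀ y i j, H y i j = H y j i) (y : EE n) (k i j : Fin n) :
    Geo.christoffel H y k i j = Geo.christoffel H y k j i := by
  simp only [Geo.christoffel, hs _ i j, add_comm (Geo.pd i _ _)]

theorem scal_eq (hU : IsOpen U) (e : ∀ y ∈ U, G y = H (pt n y)) (hs : ∀ y i j, H y i j = H y j i)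
    (hx : x ∈ U) : J.scal G x = Geo.scalar H (pt n x) := by
  have h1 : ∀ i c a b, J.pd i (fun y => J.chr G y c a b) x =
      Geo.pd i (fun y => Geo.christoffel H y c a b) (pt n x) := fun i c a b =>
    pd_eq hU (fun y hy => chr_eq hU e hy c a b) hx i
  have h2 : ∀ i j, J.ric G x i j = Geo.ricci H (pt n x) j i := fun i j => by
    simp only [J.ric, Geo.ricci, h1, chr_eq hU e hx, chr_symm hs _ _ i]
  have h3 : ∀ i j, (H (pt n x))⁻¹ i j = (H (pt n x))⁻¹ j i := fun i j => by
    rw [← Matrix.transpose_apply (H (pt n x))⁻¹, Matrix.transpose_nonsing_inv]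
    exact congrArg (fun A : Matrix (Fin n) (Fin n) ℝ => A⁻¹ j i) (Matrix.ext fun a b => hs _ b a)
  unfold J.scal Geo.scalar
  rw [Finset.sum_comm]
  simp only [h2, e x hx]
  exact Finset.sum_congr rfl fun i _ => Finset.sum_congr rfl fun j _ => by rw [h3]

end loc

variable {M : Type} [TopologicalSpace M] [ChartedSpace (EE n) M] [IsManifold (𝓡 n) ∞ M] [T2Space M]

theorem cv_eq {e : Cht n M} (he : Mx e) {x : J.E n} (hx : x ∈ (co e).target) (i : Fin n) :
    cv e x i = ds e (pt n x) (sg i) := by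
  have h := mfderiv_comp (I := 𝓘(ℝ, J.E n)) (I' := 𝓡 n) (I'' := 𝓡 n) (f := pt n) (g := e.symm) x
    ((md_chart he).mdifferentiableAt_symm hx) (pt n).mdifferentiableAt
  rw [(pt n).mfderiv_eq] at h
  exact congrArg (fun L => L (Pi.single i 1)) h

theorem scal_pt {g : Met (EE n) M} {S : M → ℝ} (h : IsScal g S) (p : M) : S p = Scal g p := by
  obtain ⟨R, ⟨D, h1, h2⟩, h3⟩ := h
  let := rb g
  have he : Mx (chartAt (EE n) p) := IsManifold.chart_mem_maximalAtlas p
  have hp := mem_chart_source (EE n) p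
  unfold Scal
  generalize chartAt (EE n) p = e at he hp
  obtain ⟨A, h4, h5⟩ := h3 (e.symm (e p))
  rw [e.left_inv hp] at h5
  rw [scal_eq (H := Geo.inChart (tens M) e) (co e).open_target (fun y hy => Matrix.ext fun i j => ?_)
    (fun _ => inChart_symm) ((co e).map_source hp), h5]
  · exact scal_chart h1.lc h2 he (e.map_source hp) h4
  · unfold gm
    rw [cv_eq he hy, cv_eq he hy]
    rfl

end

end Vale.Agent.P223X38
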